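import Mathlib

/-!
A closed subgroup of a profinite group which is normalized by an open subgroup and lies in four
cosets of a cyclic group modulo every open normal subgroup is trivial, as soon as open subgroups
have no abelian closed normal subgroups.
-/

namespace Vale.Agent.P024.H95

section finite

variable {G : Type*} [Group G]

/-- a twelfth power of an element of a subgroup covered by four cosets of `⟨z⟩` is in `⟨z⟩` -/
theorem pow_twelve_mem (C : Subgroup G) (z : G) (t : Fin 4 → G)
    (h : ∀ c ∈ C, ∃ (i : Fin 4) (m : ℤ), c = z ^ m * t i) {c : G} (hc : c ∈ C) :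
    c ^ 12 ∈ Subgroup.zpowers z := by
  choose! f m hf using h
  have hpig : ∃ a b : Fin 5, a ≠ b ∧ f (c ^ (a : ℕ)) = f (c ^ (b : ℕ)) := by
    apply Fintype.exists_ne_map_eq_of_card_lt (fun a : Fin 5 => f (c ^ (a : ℕ)))
    simp
  obtain ⟨a, b, hab, hfab⟩ := hpig
  wlog hlt : (a : ℕ) < b generalizing a b
  · exact this b a (Ne.symm hab) hfab.symm (by
      have : (a : ℕ) ≠ b := fun h => hab (Fin.ext h)
      omega)
  have h1 := hf (c ^ (a : ℕ)) (C.pow_mem hc _)
  have h2 := hf (c ^ (b : ℕ)) (C.pow_mem hc _)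
  rw [← hfab] at h2
  have h3 : c ^ ((b : ℕ) - a) = z ^ (m (c ^ (b : ℕ)) - m (c ^ (a : ℕ))) := by
    have h4 : c ^ (b : ℕ) = c ^ ((b : ℕ) - a) * c ^ (a : ℕ) := by
      rw [← pow_add]
      congr 1
      omega
    have h5 : c ^ ((b : ℕ) - a) = c ^ (b : ℕ) * (c ^ (a : ℕ))⁻¹ := by
      rw [h4]
      group
    have h7 : c ^ (b : ℕ) * (c ^ (a : ℕ))⁻¹ = (z ^ m (c ^ (b : ℕ)) * t (f (c ^ (a : ℕ)))) *
        (z ^ m (c ^ (a : ℕ)) * t (f (c ^ (a : ℕ))))⁻¹ := congrArg₂ (fun x y => x * y⁻¹) h2 h1
    rw [h5, h7, zpow_sub]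
    group
  have h6 : (b : ℕ) - a ∣ 12 := by
    have hb := b.2
    have : (b : ℕ) - a = 1 ∨ (b : ℕ) - a = 2 ∨ (b : ℕ) - a = 3 ∨ (b : ℕ) - a = 4 := by omega
    rcases this with h | h | h | h <;> rw [h] <;> decide
  obtain ⟨k, hk⟩ := h6
  rw [hk, pow_mul, h3]
  exact (Subgroup.zpowers z).pow_mem ⟨_, rfl⟩ k

/-- if moreover `c ^ 12 = 1` on the subgroup and `z` has finite order, then a finite subset has
at most 48 elements -/
theorem card_le (C : Subgroup G) (z : G) (hz : IsOfFinOrder z) (t : Fin 4 → G)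
    (h : ∀ c ∈ C, ∃ (i : Fin 4) (m : ℤ), c = z ^ m * t i) (h12 : ∀ c ∈ C, c ^ 12 = 1)
    (s : Finset G) (hs : ∀ c ∈ s, c ∈ C) : s.card ≤ 48 := by
  classical
  choose! f m hf using h
  by_contra hcon
  push Not at hcon
  obtain ⟨i, -, hi⟩ := Finset.exists_lt_card_fiber_of_mul_lt_card_of_maps_to
    (s := s) (t := (Finset.univ : Finset (Fin 4))) (f := f) (n := 12)
    (fun _ _ => Finset.mem_univ _) (by simpa using hcon)
  obtain ⟨x0, hx0⟩ : (s.filter fun x => f x = i).Nonempty := by
    rw [← Finset.card_pos]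
    omega
  rw [Finset.mem_filter] at hx0
  have hfin : Finite (Subgroup.zpowers z) := by
    rw [← Nat.card_pos_iff.trans (and_iff_right ⟨1⟩), Nat.card_zpowers]
    exact hz.orderOf_pos
  let _ : Fintype (Subgroup.zpowers z) := Fintype.ofFinite _
  have hmem : ∀ x ∈ s.filter (fun x => f x = i), x * x0⁻¹ ∈ Subgroup.zpowers z := by
    intro x hx
    rw [Finset.mem_filter] at hx
    have h1 := hf x (hs x hx.1)
    have h2 := hf x0 (hs x0 hx0.1)
    rw [hx.2] at h1
    rw [hx0.2] at h2
    refine ⟨m x - m x0, ?_⟩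
    change z ^ (m x - m x0) = x * x0⁻¹
    have h7 : x * x0⁻¹ = (z ^ m x * t i) * (z ^ m x0 * t i)⁻¹ :=
      congrArg₂ (fun x y => x * y⁻¹) h1 h2
    rw [h7, zpow_sub]
    group
  have hcard := IsCyclic.card_pow_eq_one_le (α := Subgroup.zpowers z) (n := 12) (by norm_num)
  have hle : (s.filter fun x => f x = i).card ≤
      ((Finset.univ : Finset (Subgroup.zpowers z)).filter fun a => a ^ 12 = 1).card := by
    refine Finset.card_le_card_of_injOn
      (fun x => if hx : x * x0⁻¹ ∈ Subgroup.zpowers z then ⟨x * x0⁻¹, hx⟩ else 1) ?_ ?_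
    · intro x hx
      have hx' := hmem x hx
      simp only [hx', dif_pos]
      rw [Finset.mem_coe, Finset.mem_filter]
      refine ⟨Finset.mem_univ _, ?_⟩
      ext
      have hxs := (Finset.mem_filter.1 hx).1
      simpa using h12 _ (C.mul_mem (hs x hxs) (C.inv_mem (hs x0 hx0.1)))
    · intro x hx y hy hxy
      have hx' := hmem x hx
      have hy' := hmem y hy
      simp only [hx', hy', dif_pos] at hxy
      exact mul_right_cancel (Subtype.ext_iff.1 hxy)
  omega

end finite

section profinite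

variable {S : Type*} [Group S] [TopologicalSpace S] [IsTopologicalGroup S] [CompactSpace S]
  [T2Space S] [TotallyDisconnectedSpace S]

omit [T2Space S] in
/-- an element outside some open normal subgroup -/
theorem exists_normal {x : S} (hx : x ≠ 1) :
    ∃ N : Subgroup S, N.Normal ∧ IsOpen (N : Set S) ∧ x ∉ N := by
  obtain ⟨N, hN⟩ := ProfiniteGrp.exist_openNormalSubgroup_sub_open_nhds_of_one
    (isOpen_compl_singleton (x := x)) (by simpa using hx.symm)
  exact ⟨N.toSubgroup, N.isNormal', N.isOpen', fun h => hN h rfl⟩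

omit [T2Space S] in
/-- finitely many elements are separated by one open normal subgroup -/
theorem exists_normal_finset (s : Finset S) (hs : (1 : S) ∉ s) :
    ∃ N : Subgroup S, N.Normal ∧ IsOpen (N : Set S) ∧ ∀ x ∈ s, x ∉ N := by
  classical
  induction s using Finset.induction_on with
  | empty => exact ⟨⊤, inferInstance, isOpen_univ, by simp⟩
  | insert a s ha ih =>
    obtain ⟨N, hN, hNo, hNs⟩ := ih (fun h => hs (Finset.mem_insert_of_mem h))
    obtain ⟨N', hN', hNo', hNs'⟩ := exists_normal (x := a)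
      (fun h => hs (h ▸ Finset.mem_insert_self a s))
    refine ⟨N ⊓ N', inferInstance, hNo.inter hNo', ?_⟩
    intro x hx h
    rcases Finset.mem_insert.1 hx with rfl | hx
    · exact hNs' h.2
    · exact hNs x hx h.1

theorem nrm
    (hab : ∀ W A : Subgroup S, IsOpen (W : Set S) → IsClosed (A : Set S) →
      (∀ w ∈ W, ∀ x ∈ A, w * x * w⁻¹ ∈ A) → (∀ x ∈ A, ∀ y ∈ A, x * y = y * x) → A = ⊥)
    (W C : Subgroup S) (hW : IsOpen (W : Set S))
    (hnorm : ∀ w ∈ W, ∀ x ∈ C, w * x * w⁻¹ ∈ C) (hC : C ≠ ⊥) :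
    ∃ V : Subgroup S, V.Normal ∧ IsOpen (V : Set S) ∧
      ∀ (z : S) (t : Fin 4 → S), ∃ c ∈ C, ∀ (i : Fin 4) (m : ℤ), (z ^ m * t i)⁻¹ * c ∉ V := by
  classical
  by_contra hcon
  push Not at hcon
  -- the covering modulo every open normal subgroup
  have hcov : ∀ V : Subgroup S, ∀ hV : V.Normal, IsOpen (V : Set S) →
      ∃ (z : S) (t : Fin 4 → S), ∀ c ∈ C.map (QuotientGroup.mk' V),
        ∃ (i : Fin 4) (m : ℤ), c = (z : S ⧸ V) ^ m * ((t i : S) : S ⧸ V) := by
    intro V hV hVo
    obtain ⟨z, t, h⟩ := hcon V hV hVo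
    refine ⟨z, t, ?_⟩
    rintro _ ⟨c, hc, rfl⟩
    obtain ⟨i, m, hm⟩ := h c hc
    refine ⟨i, m, ?_⟩
    have := QuotientGroup.eq.2 hm
    rw [QuotientGroup.mk'_apply, ← this]
    simp
  -- twelfth powers commute
  have hcomm : ∀ x ∈ C, ∀ y ∈ C, x ^ 12 * y ^ 12 = y ^ 12 * x ^ 12 := by
    intro x hx y hy
    by_contra hne
    obtain ⟨N, hN, hNo, hxN⟩ := exists_normal (x := (y ^ 12 * x ^ 12)⁻¹ * (x ^ 12 * y ^ 12))
      (fun h => hne (by rw [inv_mul_eq_one] at h; exact h.symm))
    obtain ⟨z, t, h⟩ := hcov N hN hNo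
    have h1 := pow_twelve_mem _ _ _ h (Subgroup.mem_map_of_mem (QuotientGroup.mk' N) hx)
    have h2 := pow_twelve_mem _ _ _ h (Subgroup.mem_map_of_mem (QuotientGroup.mk' N) hy)
    obtain ⟨k, hk⟩ := h1
    obtain ⟨l, hl⟩ := h2
    apply hxN
    rw [← QuotientGroup.eq]
    have hk' : ((x : S ⧸ N)) ^ 12 = (z : S ⧸ N) ^ k := hk.symm
    have hl' : ((y : S ⧸ N)) ^ 12 = (z : S ⧸ N) ^ l := hl.symm
    rw [QuotientGroup.mk_mul, QuotientGroup.mk_mul, QuotientGroup.mk_pow, QuotientGroup.mk_pow,
      hk', hl', ← zpow_add, ← zpow_add, add_comm]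
  -- the closed subgroup generated by the twelfth powers
  have hclo : ∀ x ∈ C, x ^ 12 = 1 := by
    set P : Set S := {y | ∃ x ∈ C, y = x ^ 12} with hP
    set B : Subgroup S := (Subgroup.closure P).topologicalClosure with hB
    have hBab : ∀ x ∈ B, ∀ y ∈ B, x * y = y * x := by
      have h1 : ∀ x ∈ P, ∀ y ∈ P, x * y = y * x := by
        rintro _ ⟨x, hx, rfl⟩ _ ⟨y, hy, rfl⟩
        exact hcomm x hx y hy
      have h2 : Subgroup.closure P ≤ Subgroup.centralizer P := by
        rw [Subgroup.closure_le]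
        intro x hx
        rw [SetLike.mem_coe, Subgroup.mem_centralizer_iff]
        intro y hy
        exact h1 y hy x hx
      have h3 : B ≤ Subgroup.centralizer P :=
        Subgroup.topologicalClosure_minimal _ h2 (Set.isClosed_centralizer P)
      have h4 : Subgroup.closure P ≤ Subgroup.centralizer (B : Set S) := by
        rw [Subgroup.closure_le]
        intro x hx
        rw [SetLike.mem_coe, Subgroup.mem_centralizer_iff]
        intro y hy
        exact (Subgroup.mem_centralizer_iff.1 (h3 hy) x hx).symm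
      have h5 : B ≤ Subgroup.centralizer (B : Set S) :=
        Subgroup.topologicalClosure_minimal _ h4 (Set.isClosed_centralizer _)
      intro x hx y hy
      exact (Subgroup.mem_centralizer_iff.1 (h5 hx) y hy).symm
    have hBn : ∀ w ∈ W, ∀ x ∈ B, w * x * w⁻¹ ∈ B := by
      intro w hw
      have h1 : Subgroup.closure P ≤ B.comap (MulAut.conj w).toMonoidHom := by
        rw [Subgroup.closure_le]
        rintro _ ⟨x, hx, rfl⟩
        rw [SetLike.mem_coe, Subgroup.mem_comap]
        apply Subgroup.le_topologicalClosure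
        apply Subgroup.subset_closure
        refine ⟨w * x * w⁻¹, hnorm w hw x hx, ?_⟩
        simp [conj_pow]
      have h2 : B ≤ B.comap (MulAut.conj w).toMonoidHom := by
        apply Subgroup.topologicalClosure_minimal _ h1
        have : IsClosed ((MulAut.conj w).toMonoidHom ⁻¹' (B : Set S)) := by
          apply (Subgroup.isClosed_topologicalClosure _).preimage
          change Continuous fun x : S => w * x * w⁻¹
          fun_prop
        exact this
      intro x hx
      exact h2 hx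
    have hB0 := hab W B hW (Subgroup.isClosed_topologicalClosure _) hBn hBab
    intro x hx
    have : x ^ 12 ∈ B := Subgroup.le_topologicalClosure _ (Subgroup.subset_closure ⟨x, hx, rfl⟩)
    rw [hB0] at this
    simpa using this
  -- so `C` is finite
  have hfin : (C : Set S).Finite := by
    by_contra hinf
    obtain ⟨s, hsC, hs⟩ := Set.Infinite.exists_subset_card_eq (hs := hinf) 49
    obtain ⟨N, hN, hNo, hNs⟩ := exists_normal_finset
      (((s ×ˢ s).filter fun q => q.1 ≠ q.2).image fun q => q.1⁻¹ * q.2) (by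
        intro h
        obtain ⟨q, hq, h1⟩ := Finset.mem_image.1 h
        rw [inv_mul_eq_one] at h1
        exact (Finset.mem_filter.1 hq).2 h1)
    obtain ⟨z, t, h⟩ := hcov N hN hNo
    have hfinq : Finite (S ⧸ N) := Subgroup.quotient_finite_of_isOpen N hNo
    have hle := card_le _ (z : S ⧸ N) (isOfFinOrder_of_finite _) _ h (by
      rintro _ ⟨c, hc, rfl⟩
      rw [← map_pow, hclo c hc, map_one]) (s.image (QuotientGroup.mk' N)) (by
      intro c hc
      obtain ⟨x, hx, rfl⟩ := Finset.mem_image.1 hc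
      exact Subgroup.mem_map_of_mem _ (hsC hx))
    rw [Finset.card_image_of_injOn, hs] at hle
    · omega
    · intro x hx y hy hxy
      by_contra hne
      apply hNs (x⁻¹ * y)
      · exact Finset.mem_image.2 ⟨(x, y), Finset.mem_filter.2 ⟨Finset.mk_mem_product hx hy, hne⟩,
          rfl⟩
      · exact QuotientGroup.eq.1 hxy
  -- the centralizer of an element of `C` is open
  obtain ⟨⟨c, hc⟩, hc1⟩ := Subgroup.ne_bot_iff_exists_ne_one.1 hC
  have hc1' : c ≠ 1 := fun h => hc1 (Subtype.ext h)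
  have hopen : IsOpen (Subgroup.centralizer {c} : Set S) := by
    have h1 : IsOpen ((W : Set S) \ ⋃ d ∈ (C : Set S) \ {c}, {u : S | u * c * u⁻¹ = d}) := by
      apply hW.sdiff
      apply (hfin.subset Set.sdiff_subset).isClosed_biUnion
      intro d _
      exact isClosed_eq (by fun_prop) continuous_const
    have h2 : (W : Set S) \ ⋃ d ∈ (C : Set S) \ {c}, {u : S | u * c * u⁻¹ = d} =
        ((W ⊓ Subgroup.centralizer {c} : Subgroup S) : Set S) := by
      ext u
      simp only [Set.mem_sdiff, SetLike.mem_coe, Set.mem_iUnion, Set.mem_singleton_iff,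
        Set.mem_ofPred_eq, exists_prop, not_exists, not_and, Subgroup.coe_inf, Set.mem_inter_iff]
      constructor
      · rintro ⟨hu, h⟩
        refine ⟨hu, ?_⟩
        have h3 : u * c * u⁻¹ = c := by
          by_contra hne
          exact h _ ⟨hnorm u hu c hc, hne⟩ rfl
        rw [Subgroup.mem_centralizer_iff]
        rintro _ rfl
        rw [mul_inv_eq_iff_eq_mul] at h3
        exact h3.symm
      · rintro ⟨hu, h⟩
        refine ⟨hu, ?_⟩
        rintro d ⟨_, hd⟩ h3
        apply hd
        rw [← h3]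
        have h4 := (Subgroup.mem_centralizer_iff.1 h) c rfl
        rw [← h4]
        group
    rw [h2] at h1
    exact Subgroup.isOpen_mono inf_le_right h1
  have hzfin : (Subgroup.zpowers c : Set S).Finite :=
    hfin.subset (Subgroup.zpowers_le.2 hc)
  have h0 := hab (Subgroup.centralizer {c}) (Subgroup.zpowers c) hopen hzfin.isClosed (by
    intro w hw x hx
    obtain ⟨k, rfl⟩ := hx
    have h4 : Commute c w := (Subgroup.mem_centralizer_iff.1 hw) c rfl
    have h5 : w * c ^ k * w⁻¹ = c ^ k := by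
      rw [mul_inv_eq_iff_eq_mul]
      exact (h4.zpow_left k).symm
    change w * c ^ k * w⁻¹ ∈ _
    rw [h5]
    exact ⟨k, rfl⟩) (by
    rintro _ ⟨k, rfl⟩ _ ⟨l, rfl⟩
    change c ^ k * c ^ l = c ^ l * c ^ k
    rw [← zpow_add, ← zpow_add, add_comm])
  exact hc1' (Subgroup.zpowers_eq_bot.1 h0)

end profinite

end Vale.Agent.P024.H95
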